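import Mathlib

set_option autoImplicit false

/-!
# Forms which kill all `q`-th powers and slots with three tail letters: definitions

`A` is a commutative algebra, `B` (the two main variables) and `Z` (the tail variables) are
submodules; a form is a symmetric multilinear form on `A`, with slots `ι`.
-/

namespace Vale.Agent.P181.H984

variable {A : Type*} [CommRing A] [Algebra ℂ A] {ι : Type*} [Fintype ι] [DecidableEq ι]

/-- symmetric multilinear forms -/
def Symm {W : Type*} [AddCommGroup W] [Module ℂ W]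
    (ψ : MultilinearMap ℂ (fun _ : ι => W) ℂ) : Prop :=
  ∀ (σ : Equiv.Perm ι) (P : ι → W), ψ (fun i => P (σ i)) = ψ P

/-- `ψ` kills all `q`-th powers of elements of `(B ⊔ Z)^c` -/
def PowZero (B Z : Submodule ℂ A) (q c : ℕ) (ψ : MultilinearMap ℂ (fun _ : ι => A) ℂ) : Prop :=
  ∀ G ∈ (B ⊔ Z) ^ c, ψ (fun _ => G ^ q) = 0

/-- `ψ` kills everything of degree `D` which has three tail letters in one slot -/
def V3 (B Z : Submodule ℂ A) (D : ℕ) (ψ : MultilinearMap ℂ (fun _ : ι => A) ℂ) : Prop :=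
  ∀ P : ι → A, (∀ i, P i ∈ (B ⊔ Z) ^ D) → (∃ i, P i ∈ Z ^ 3 * (B ⊔ Z) ^ (D - 3)) → ψ P = 0

/-- `ψ` kills everything of degree `D` with tail letters in at least `k` slots -/
def T (B Z : Submodule ℂ A) (D k : ℕ) (ψ : MultilinearMap ℂ (fun _ : ι => A) ℂ) : Prop :=
  ∀ M : Finset ι, k ≤ M.card → ∀ P : ι → A, (∀ i, P i ∈ (B ⊔ Z) ^ D) →
    (∀ i ∈ M, P i ∈ Z * (B ⊔ Z) ^ (D - 1)) → ψ P = 0

/-- the product `∏ j, m j ^ e j` -/
def Qp {J : Type*} [Fintype J] (m : J → A) (e : J → ℕ) : A := ∏ j, m j ^ e j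

end Vale.Agent.P181.H984
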