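import Vale.Agent.P181.H984.Defs
import Vale.Agent.P181.H180.PowExpand
import Vale.Agent.P181.H445.Extract
import Vale.Agent.P181.H365.Bridge

set_option autoImplicit false

/-! # The lemmas L1, L2, L4 in the form used below -/

namespace Vale.Agent.P181.H984

variable {A : Type*} [CommRing A] [Algebra ℂ A]

theorem cast_choose (s : ℕ) : (((s + 2) * (s + 1) / 2 : ℕ) : ℂ) =
    ((s + 2 : ℕ) : ℂ) * (((s + 2 : ℕ) : ℂ) - 1) / 2 := by
  have h : 2 * ((s + 2) * (s + 1) / 2) = (s + 2) * (s + 1) := by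
    apply Nat.mul_div_cancel'
    have := Nat.even_mul_succ_self (s + 1)
    rw [mul_comm] at this
    exact this.two_dvd
  have h2 : (2 : ℂ) * (((s + 2) * (s + 1) / 2 : ℕ) : ℂ) = ((s + 2 : ℕ) : ℂ) * ((s + 1 : ℕ) : ℂ) := by
    exact_mod_cast h
  have h3 : ((s + 2 : ℕ) : ℂ) - 1 = ((s + 1 : ℕ) : ℂ) := by push_cast; ring
  rw [h3, eq_div_iff (by norm_num : (2 : ℂ) ≠ 0), mul_comm]
  exact h2

theorem pow_expand {J α : Type*} [Fintype J] [DecidableEq J] [Fintype α] [DecidableEq α]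
    (B Z : Submodule ℂ A) (s : ℕ) (m : J → A) (hm : ∀ j, m j ∈ B)
    (ρ : α → J) (hρ : Function.Injective ρ) (i : α → J) (hi : ∀ l, i l ≠ ρ l) (w v : α → A)
    (hw : ∀ l, w l ∈ Z) (hv : ∀ l, v l ∈ Z ^ 2) (t : α → ℂ) :
    ∃ G ∈ (B ⊔ Z) ^ Fintype.card J, G ^ (s + 2) - (Qp m (fun _ => s + 2) +
      ∑ l, (t l • (((s + 2 : ℕ) : ℂ) • (w l * Qp m (fun j => s + 2 - if j = ρ l then 1 else 0) +
          v l * Qp m (fun j => s + 2 - (if j = ρ l then 1 else 0) - (if j = i l then 1 else 0)))) +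
        (t l) ^ 2 • ((((s + 2) * (s + 1) / 2 : ℕ) : ℂ) •
          (w l ^ 2 * Qp m (fun j => s + 2 - if j = ρ l then 2 else 0))))) ∈
      Z ^ 3 * (B ⊔ Z) ^ ((s + 2) * Fintype.card J - 3) := by
  obtain ⟨G, hG, h⟩ := H180.pow_expand B Z (s + 2) (by omega) m hm ρ hρ i hi w v hw hv t
  refine ⟨G, hG, ?_⟩
  rw [cast_choose]
  have e : ∀ l, Qp m (fun j => s + 2 - if j = ρ l then 2 else 0) =
      ∏ j, m j ^ (s + 2 - 2 * if j = ρ l then 1 else 0) := by
    intro l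
    unfold Qp
    apply Finset.prod_congr rfl
    intro j _
    by_cases hj : j = ρ l
    · simp only [if_pos hj, mul_one]
    · simp only [if_neg hj, mul_zero]
  simp only [e]
  exact h

theorem extract {W ι α : Type*} [AddCommGroup W] [Module ℂ W] [Fintype ι] [DecidableEq ι]
    [Fintype α] [DecidableEq α] (ψ : MultilinearMap ℂ (fun _ : ι => W) ℂ) (hs : Symm ψ)
    (sg : α ↪ ι) (E0 : W) (Y : α × Bool → W) (e : α → Bool)
    (IH : ∀ f : ι → Option (α × Bool),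
      Fintype.card α < (Finset.univ.filter (fun i => f i ≠ none)).card →
      ψ (fun i => (f i).elim E0 Y) = 0)
    (E : ∀ t : α → ℂ, ψ (fun _ => E0 + ∑ l, (t l • Y (l, false) + (t l) ^ 2 • Y (l, true))) = 0)
    (g : ι → W) (hg1 : ∀ l, g (sg l) = Y (l, e l)) (hg2 : ∀ i, (∀ l, sg l ≠ i) → g i = E0) :
    ψ g = 0 :=
  H445.extract_lit ψ hs sg E0 Y e IH E g hg1 hg2

variable {ι : Type*} [Fintype ι] [DecidableEq ι]

theorem bridge (ψ : MultilinearMap ℂ (fun _ : ι => A) ℂ) (h : ι → (Polynomial ℂ →ₗ[ℂ] A)) :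
    ∃ φ : MvPolynomial ι ℂ →ₗ[ℂ] ℂ,
      (∀ f : ι → Polynomial ℂ,
        φ (∏ p, Polynomial.aeval (MvPolynomial.X p) (f p)) = ψ (fun p => h p (f p))) ∧
      (Symm ψ → ∀ p p', h p = h p' → ∀ g, φ (MvPolynomial.rename (Equiv.swap p p') g) = φ g) :=
  H365.exists_phi ψ h

/-- homogenisation -/
noncomputable def hom (x0 x1 : A) (D : ℕ) : Polynomial ℂ →ₗ[ℂ] A := H365.hom ℂ x0 x1 D

theorem hom_X_pow (x0 x1 : A) (D k : ℕ) (hk : k ≤ D) :
    hom x0 x1 D (Polynomial.X ^ k) = x0 ^ (D - k) * x1 ^ k := H365.hom_X_pow x0 x1 hk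

theorem hom_Qp {J : Type*} [Fintype J] (x0 x1 : A) (D : ℕ) (α β : J → ℂ) (e : J → ℕ)
    (he : ∑ j, e j = D) :
    hom x0 x1 D (∏ j, (Polynomial.C (α j) * Polynomial.X + Polynomial.C (β j)) ^ e j) =
      Qp (fun j => α j • x1 + β j • x0) e := by
  subst he
  exact H365.hom_prod_lin_pow x0 x1 Finset.univ α β e

theorem deriv_prod {J : Type*} [Fintype J] [DecidableEq J] (α β : J → ℂ) (e : J → ℕ) :
    Polynomial.derivative (∏ j, (Polynomial.C (α j) * Polynomial.X + Polynomial.C (β j)) ^ e j) =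
      ∑ i, ((e i : ℂ) * α i) •
        ∏ j, (Polynomial.C (α j) * Polynomial.X + Polynomial.C (β j)) ^
          (e j - if j = i then 1 else 0) := by
  have h := H365.derivative_prod_lin_pow Finset.univ α β e
  exact h

end Vale.Agent.P181.H984
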