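import Vale.Agent.P181.H984.Step

set_option autoImplicit false

/-! # The kernel theorem with at most two tail letters per slot -/

namespace Vale.Agent.P181.H984

/-- `d` slots, `c ≥ d` roots, `q ≥ 2`. -/
theorem kernel_gen (d c q : ℕ) (hdc : d ≤ c) (hc : 2 ≤ c) (hq : 2 ≤ q) (A : Type*) [CommRing A]
    [Algebra ℂ A] (x0 x1 : A) (Z : Submodule ℂ A) (F : MultilinearMap ℂ (fun _ : Fin d => A) ℂ)
    (hs : ∀ (σ : Equiv.Perm (Fin d)) (P : Fin d → A), F (fun i => P (σ i)) = F P)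
    (hP : ∀ G ∈ (Submodule.span ℂ {x0, x1} ⊔ Z) ^ c, F (fun _ => G ^ q) = 0)
    (hV : ∀ P : Fin d → A, (∀ i, P i ∈ (Submodule.span ℂ {x0, x1} ⊔ Z) ^ (q * c)) →
      (∃ i, P i ∈ Z ^ 3 * (Submodule.span ℂ {x0, x1} ⊔ Z) ^ (q * c - 3)) → F P = 0)
    (P : Fin d → A) (hPm : ∀ i, P i ∈ (Submodule.span ℂ {x0, x1} ⊔ Z) ^ (q * c)) : F P = 0 := by
  obtain ⟨s, rfl⟩ : ∃ s, q = s + 2 := ⟨q - 2, by omega⟩
  have hcard : Fintype.card (Fin d ⊕ Fin (c - d)) = c := by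
    rw [Fintype.card_sum, Fintype.card_fin, Fintype.card_fin]; omega
  apply all_zero (κ := Fin (c - d)) (Submodule.span ℂ {x0, x1}) Z x0 x1 rfl s (by omega) F hs
  · intro G hG
    rw [hcard] at hG
    exact hP G hG
  · rw [hcard]
    exact hV
  · rw [hcard]
    exact hPm

end Vale.Agent.P181.H984
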