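import Vale.Agent.P181.H984.Glue

set_option autoImplicit false

namespace Vale.Agent.P181.H984

open Finset

variable {A : Type*} [CommRing A] [Algebra ℂ A] {ι κ : Type*} [Fintype ι] [DecidableEq ι]
  [Fintype κ] [DecidableEq κ]

theorem Qp_mem {J : Type*} [Fintype J] (B : Submodule ℂ A) (m : J → A) (hm : ∀ j, m j ∈ B)
    (e : J → ℕ) : Qp m e ∈ B ^ (∑ j, e j) := by
  classical
  unfold Qp
  have h : ∀ S : Finset J, ∏ j ∈ S, m j ^ e j ∈ B ^ (∑ j ∈ S, e j) := by
    intro S
    induction S using Finset.induction with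
    | empty =>
      rw [prod_empty, sum_empty, pow_zero]
      exact Submodule.mem_one.2 ⟨1, map_one _⟩
    | insert j S hj ih =>
      rw [prod_insert hj, sum_insert hj, pow_add]
      exact Submodule.mul_mem_mul (Submodule.pow_mem_pow _ (hm j) _) ih
  exact h univ

theorem pow_le_sup (B Z : Submodule ℂ A) (n : ℕ) : B ^ n ≤ (B ⊔ Z) ^ n :=
  pow_le_pow_left' le_sup_left n

theorem sum_one {J : Type*} [Fintype J] [DecidableEq J] (q : ℕ) (hq : 1 ≤ q) (r : J) :
    ∑ j, (q - if j = r then 1 else 0) = q * Fintype.card J - 1 := by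
  have h : ∑ j, (q - if j = r then 1 else 0) + ∑ j, (if j = r then 1 else 0) = ∑ _j : J, q := by
    rw [← sum_add_distrib]
    apply sum_congr rfl
    intro j _
    split_ifs <;> omega
  rw [sum_ite_eq' univ r, if_pos (mem_univ r), sum_const, card_univ, smul_eq_mul, mul_comm] at h
  omega

theorem sum_two {J : Type*} [Fintype J] [DecidableEq J] (q : ℕ) (hq : 2 ≤ q) (r r' : J) :
    ∑ j, (q - (if j = r then 1 else 0) - (if j = r' then 1 else 0)) = q * Fintype.card J - 2 := by
  have h : ∑ j, (q - (if j = r then 1 else 0) - (if j = r' then 1 else 0)) +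
      ∑ j, (if j = r' then 1 else 0) = ∑ j, (q - (if j = r then 1 else 0)) := by
    rw [← sum_add_distrib]
    apply sum_congr rfl
    intro j _
    split_ifs <;> omega
  rw [sum_ite_eq' univ r', if_pos (mem_univ r'), sum_one q (by omega) r] at h
  omega

theorem Q1_mem {J : Type*} [Fintype J] [DecidableEq J] (B Z : Submodule ℂ A) (m : J → A)
    (hm : ∀ j, m j ∈ B) (q : ℕ) (hq : 1 ≤ q) (r : J) :
    Qp m (fun j => q - if j = r then 1 else 0) ∈ (B ⊔ Z) ^ (q * Fintype.card J - 1) := by
  have h := Qp_mem B m hm (fun j => q - if j = r then 1 else 0)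
  rw [sum_one q hq r] at h
  exact pow_le_sup B Z _ h

theorem Q2_mem {J : Type*} [Fintype J] [DecidableEq J] (B Z : Submodule ℂ A) (m : J → A)
    (hm : ∀ j, m j ∈ B) (q : ℕ) (hq : 2 ≤ q) (r r' : J) :
    Qp m (fun j => q - (if j = r then 1 else 0) - (if j = r' then 1 else 0)) ∈
      (B ⊔ Z) ^ (q * Fintype.card J - 2) := by
  have h := Qp_mem B m hm (fun j => q - (if j = r then 1 else 0) - (if j = r' then 1 else 0))
  rw [sum_two q hq r r'] at h
  exact pow_le_sup B Z _ h

theorem Z_mul_le (B Z : Submodule ℂ A) {D : ℕ} (hD : 1 ≤ D) :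
    Z * (B ⊔ Z) ^ (D - 1) ≤ (B ⊔ Z) ^ D := by
  obtain ⟨D, rfl⟩ : ∃ D', D = D' + 1 := ⟨D - 1, by omega⟩
  rw [Nat.add_sub_cancel, pow_succ']
  exact mul_le_mul' le_sup_right le_rfl

theorem Z2_mul_le (B Z : Submodule ℂ A) {D : ℕ} (hD : 2 ≤ D) :
    Z ^ 2 * (B ⊔ Z) ^ (D - 2) ≤ Z * (B ⊔ Z) ^ (D - 1) := by
  obtain ⟨D, rfl⟩ : ∃ D', D = D' + 2 := ⟨D - 2, by omega⟩
  rw [Nat.add_sub_cancel, show D + 2 - 1 = D + 1 by omega, pow_succ' (B ⊔ Z), pow_two, mul_assoc]
  exact mul_le_mul' le_rfl (mul_le_mul' le_sup_right le_rfl)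

theorem Z3_mul_le (B Z : Submodule ℂ A) {D : ℕ} (hD : 3 ≤ D) :
    Z ^ 3 * (B ⊔ Z) ^ (D - 3) ≤ (B ⊔ Z) ^ D := by
  obtain ⟨D, rfl⟩ : ∃ D', D = D' + 3 := ⟨D - 3, by omega⟩
  rw [Nat.add_sub_cancel, show D + 3 = 3 + D by omega, pow_add]
  exact mul_le_mul' (pow_le_pow_left' le_sup_right 3) le_rfl

/-- slots may be changed by three-letter terms -/
theorem V3.congr {B Z : Submodule ℂ A} {D : ℕ} {ψ : MultilinearMap ℂ (fun _ : ι => A) ℂ}
    (hV : V3 B Z D ψ) (hD : 3 ≤ D) (P Q : ι → A) (hP : ∀ i, P i ∈ (B ⊔ Z) ^ D)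
    (hPQ : ∀ i, P i - Q i ∈ Z ^ 3 * (B ⊔ Z) ^ (D - 3)) : ψ Q = ψ P := by
  have hQ : ∀ i, Q i ∈ (B ⊔ Z) ^ D := by
    intro i
    have : Q i = P i - (P i - Q i) := by abel
    rw [this]
    exact Submodule.sub_mem _ (hP i) (Z3_mul_le B Z hD (hPQ i))
  have key : ∀ S : Finset ι, ψ (S.piecewise Q P) = ψ P := by
    intro S
    induction S using Finset.induction with
    | empty => rw [piecewise_empty]
    | insert j S hj ih =>
      rw [← ih]
      have h1 : (insert j S).piecewise Q P = Function.update (S.piecewise Q P) j (Q j) := by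
        rw [piecewise_insert]
      have h2 : S.piecewise Q P = Function.update (S.piecewise Q P) j (P j) := by
        conv_lhs => rw [← Function.update_eq_self j (S.piecewise Q P)]
        rw [piecewise_eq_of_notMem _ _ _ hj]
      have h3 : ψ (Function.update (S.piecewise Q P) j (P j - Q j)) = 0 := by
        apply hV
        · intro i
          by_cases hi : i = j
          · subst hi
            rw [Function.update_self]
            exact Z3_mul_le B Z hD (hPQ i)
          · rw [Function.update_of_ne hi]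
            by_cases hS : i ∈ S
            · rw [piecewise_eq_of_mem _ _ _ hS]; exact hQ i
            · rw [piecewise_eq_of_notMem _ _ _ hS]; exact hP i
        · exact ⟨j, by rw [Function.update_self]; exact hPQ j⟩
      rw [MultilinearMap.map_update_sub, ← h2] at h3
      rw [h1, ← sub_eq_zero, ← neg_sub, neg_eq_zero]
      exact h3
  have := key univ
  rwa [piecewise_univ] at this

open Classical in
theorem star (B Z : Submodule ℂ A) (s : ℕ) (hc : 2 ≤ Fintype.card (ι ⊕ κ))
    (ψ : MultilinearMap ℂ (fun _ : ι => A) ℂ) (hs : Symm ψ)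
    (hP : PowZero B Z (s + 2) (Fintype.card (ι ⊕ κ)) ψ)
    (hV : V3 B Z ((s + 2) * Fintype.card (ι ⊕ κ)) ψ) (As : Finset ι)
    (hT : T B Z ((s + 2) * Fintype.card (ι ⊕ κ)) (As.card + 1) ψ)
    (dbl : Finset ι) (hd : dbl ⊆ As) (w : ι → A)
    (hw : ∀ p, w p ∈ Z) (m : ι ⊕ κ → A) (hm : ∀ j, m j ∈ B) (i : ι → ι ⊕ κ) :
    ψ (fun p => if p ∈ dbl then w p ^ 2 * Qp m (fun j => s + 2 -
        (if j = Sum.inl p then 1 else 0) - (if j = i p then 1 else 0))
      else if p ∈ As then w p * Qp m (fun j => s + 2 - if j = Sum.inl p then 1 else 0)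
      else Qp m (fun _ => s + 2)) = 0 := by
  set D := (s + 2) * Fintype.card (ι ⊕ κ) with hD
  have hD4 : 4 ≤ D := by rw [hD]; nlinarith
  -- another root
  have ho : ∀ p : ι, ∃ r : ι ⊕ κ, r ≠ Sum.inl p := by
    intro p
    obtain ⟨r, hr⟩ := Fintype.exists_ne_of_one_lt_card (by omega) (Sum.inl p : ι ⊕ κ)
    exact ⟨r, hr⟩
  choose o ho using ho
  let ch : {p // p ∈ As} → Prop := fun l => l.1 ∈ dbl ∧ i l.1 ≠ Sum.inl l.1
  let i' : {p // p ∈ As} → ι ⊕ κ := fun l => if ch l then i l.1 else o l.1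
  let w' : {p // p ∈ As} → A := fun l => if ch l then 0 else w l.1
  let v' : {p // p ∈ As} → A := fun l => if ch l then w l.1 ^ 2 else 0
  let ρ : {p // p ∈ As} → ι ⊕ κ := fun l => Sum.inl l.1
  let e : {p // p ∈ As} → Bool := fun l => decide (l.1 ∈ dbl ∧ i l.1 = Sum.inl l.1)
  let E0 : A := Qp m (fun _ => s + 2)
  let Y : {p // p ∈ As} × Bool → A := fun x =>
    if x.2 then ((((s + 2) * (s + 1) / 2 : ℕ) : ℂ) •
          (w' x.1 ^ 2 * Qp m (fun j => s + 2 - if j = ρ x.1 then 2 else 0)))
    else (((s + 2 : ℕ) : ℂ) • (w' x.1 * Qp m (fun j => s + 2 - if j = ρ x.1 then 1 else 0) +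
          v' x.1 * Qp m (fun j => s + 2 - (if j = ρ x.1 then 1 else 0) -
            (if j = i' x.1 then 1 else 0))))
  have hi' : ∀ l, i' l ≠ ρ l := by
    intro l
    by_cases h : ch l
    · simp only [i', if_pos h]
      exact h.2
    · simp only [i', if_neg h]
      exact ho l.1
  have hw' : ∀ l, w' l ∈ Z := by
    intro l
    simp only [w']
    split_ifs
    · exact Z.zero_mem
    · exact hw _
  have hv' : ∀ l, v' l ∈ Z ^ 2 := by
    intro l
    simp only [v']
    split_ifs
    · exact Submodule.pow_mem_pow _ (hw _) _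
    · exact (Z ^ 2).zero_mem
  have hρ : Function.Injective ρ := by
    intro a b hab
    exact Subtype.ext (Sum.inl_injective hab)
  have hE0 : E0 ∈ (B ⊔ Z) ^ D := by
    have h := Qp_mem B m hm (fun _ => s + 2)
    rw [sum_const, card_univ, smul_eq_mul, mul_comm] at h
    exact pow_le_sup B Z _ h
  have hQ3 : ∀ r : ι ⊕ κ, Qp m (fun j => s + 2 - if j = r then 2 else 0) =
      Qp m (fun j => s + 2 - (if j = r then 1 else 0) - (if j = r then 1 else 0)) := by
    intro r
    congr 1
    funext j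
    split_ifs <;> omega
  have hY : ∀ x, Y x ∈ Z * (B ⊔ Z) ^ (D - 1) := by
    rintro ⟨l, b⟩
    simp only [Y]
    split_ifs with hb
    · apply Submodule.smul_mem
      apply Z2_mul_le B Z (by omega)
      apply Submodule.mul_mem_mul (Submodule.pow_mem_pow _ (hw' l) _)
      rw [hQ3]
      exact Q2_mem B Z m hm (s + 2) (by omega) _ _
    · apply Submodule.smul_mem
      apply Submodule.add_mem
      · exact Submodule.mul_mem_mul (hw' l) (Q1_mem B Z m hm (s + 2) (by omega) _)
      · apply Z2_mul_le B Z (by omega)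
        exact Submodule.mul_mem_mul (hv' l) (Q2_mem B Z m hm (s + 2) (by omega) _ _)
  have hY' : ∀ x, Y x ∈ (B ⊔ Z) ^ D := fun x => Z_mul_le B Z (by omega) (hY x)
  have hEmem : ∀ t : {p // p ∈ As} → ℂ,
      E0 + ∑ l, (t l • Y (l, false) + (t l) ^ 2 • Y (l, true)) ∈ (B ⊔ Z) ^ D := by
    intro t
    apply Submodule.add_mem _ hE0
    apply Submodule.sum_mem
    intro l _
    exact Submodule.add_mem _ (Submodule.smul_mem _ _ (hY' _)) (Submodule.smul_mem _ _ (hY' _))
  have hE : ∀ t : {p // p ∈ As} → ℂ,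
      ψ (fun _ => E0 + ∑ l, (t l • Y (l, false) + (t l) ^ 2 • Y (l, true))) = 0 := by
    intro t
    obtain ⟨G, hG, hGE⟩ := pow_expand B Z s m hm ρ hρ i' hi' w' v' hw' hv' t
    have h1 := hP G hG
    rw [← h1]
    apply hV.congr (by omega) (fun _ => G ^ (s + 2))
    · intro _
      have := Submodule.pow_mem_pow _ hG (s + 2)
      rwa [← pow_mul, mul_comm] at this
    · intro _
      exact hGE
  have hIH : ∀ f : ι → Option ({p // p ∈ As} × Bool),
      Fintype.card {p // p ∈ As} < (Finset.univ.filter (fun i => f i ≠ none)).card →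
      ψ (fun i => (f i).elim E0 Y) = 0 := by
    intro f hf
    rw [Fintype.card_coe] at hf
    apply hT (Finset.univ.filter (fun i => f i ≠ none)) (by omega)
    · intro i
      cases hfi : f i with
      | none => exact hE0
      | some x => exact hY' x
    · intro i hi
      rw [mem_filter] at hi
      cases hfi : f i with
      | none => exact absurd hfi hi.2
      | some x => exact hY x
  -- the result of the extraction
  let c : ι → ℂ := fun p => if p ∈ dbl ∧ i p = Sum.inl p then (((s + 2) * (s + 1) / 2 : ℕ) : ℂ)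
    else if p ∈ As then ((s + 2 : ℕ) : ℂ) else 1
  set R : ι → A := fun p => if p ∈ dbl then w p ^ 2 * Qp m (fun j => s + 2 -
        (if j = Sum.inl p then 1 else 0) - (if j = i p then 1 else 0))
      else if p ∈ As then w p * Qp m (fun j => s + 2 - if j = Sum.inl p then 1 else 0)
      else Qp m (fun _ => s + 2) with hR
  have hfin : ψ (fun p => c p • R p) = 0 := by
    apply extract ψ hs (Function.Embedding.subtype _) E0 Y e hIH hE
    · intro l
      obtain ⟨p, hp⟩ := l
      simp only [Function.Embedding.coe_subtype]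
      by_cases h1 : p ∈ dbl
      · by_cases h2 : i p = Sum.inl p
        · have hch : ¬ ch ⟨p, hp⟩ := fun h => h.2 h2
          have he : e ⟨p, hp⟩ = true := by simp [e, h1, h2]
          simp only [c, R, Y, he, w', if_neg hch, h1, h2, and_self, if_true, ρ, hQ3]
        · have hch : ch ⟨p, hp⟩ := ⟨h1, h2⟩
          have he : e ⟨p, hp⟩ = false := by simp [e, h2]
          simp only [c, R, Y, he, w', v', i', if_pos hch, h1, h2, and_false, if_true, if_false, ρ,
            hp, zero_mul, zero_add, Bool.false_eq_true]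
      · have hch : ¬ ch ⟨p, hp⟩ := fun h => h1 h.1
        have he : e ⟨p, hp⟩ = false := by simp [e, h1]
        simp only [c, R, Y, he, w', v', i', if_neg hch, h1, false_and, if_true, if_false, ρ,
            hp, zero_mul, add_zero, Bool.false_eq_true]
    · intro p hp
      have hpA : p ∉ As := fun h => hp ⟨p, h⟩ rfl
      have hpd : p ∉ dbl := fun h => hpA (hd h)
      simp only [c, R, hpA, hpd, false_and, if_false, one_smul, E0]
  rw [MultilinearMap.map_smul_univ, smul_eq_mul] at hfin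
  refine (mul_eq_zero.1 hfin).resolve_left ?_
  apply prod_ne_zero_iff.mpr
  intro p _
  simp only [c]
  split_ifs
  · rw [Nat.cast_ne_zero]
    have : 2 ≤ (s + 2) * (s + 1) := by nlinarith
    omega
  · rw [Nat.cast_ne_zero]; omega
  · exact one_ne_zero

end Vale.Agent.P181.H984
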