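import Vale.Agent.P181.H984.Star
import Vale.Agent.P181.H482.Span
import Vale.Agent.P181.H4.K2

set_option autoImplicit false

namespace Vale.Agent.P181.H984

open Finset MvPolynomial

variable {A : Type*} [CommRing A] [Algebra ℂ A] {ι κ : Type*} [Fintype ι] [DecidableEq ι]
  [Fintype κ] [DecidableEq κ]

theorem zero_of_span (ψ : MultilinearMap ℂ (fun _ : ι => A) ℂ) (S : ι → Set A)
    (h : ∀ w : ι → A, (∀ i, w i ∈ S i) → ψ w = 0) (w : ι → A)
    (hw : ∀ i, w i ∈ Submodule.span ℂ (S i)) : ψ w = 0 := by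
  classical
  have h1 : ∀ i, ∃ l : S i →₀ ℂ, Finsupp.linearCombination ℂ (Subtype.val : S i → A) l = w i := by
    intro i
    rw [← Finsupp.mem_span_iff_linearCombination]
    exact hw i
  choose l hl using h1
  have h2 : w = fun i => ∑ r ∈ (l i).support, (l i r) • (r : A) := by
    funext i
    rw [← hl i, Finsupp.linearCombination_apply, Finsupp.sum]
  rw [h2, MultilinearMap.map_sum_finset]
  apply Finset.sum_eq_zero
  intro r _
  rw [MultilinearMap.map_smul_univ, h _ (fun i => (r i).2), smul_zero]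

open Classical in
/-- the slot maps -/
noncomputable def hmap (x0 x1 : A) (D : ℕ) (As dbl : Finset ι) (w : ι → A) (p : ι) :
    Polynomial ℂ →ₗ[ℂ] A :=
  if p ∈ dbl then (LinearMap.mulLeft ℂ (w p ^ 2)) ∘ₗ (hom x0 x1 (D - 2)) ∘ₗ
      (Polynomial.derivative (R := ℂ))
  else if p ∈ As then (LinearMap.mulLeft ℂ (w p)) ∘ₗ (hom x0 x1 (D - 1))
  else hom x0 x1 D

theorem hmap_dbl (x0 x1 : A) (D : ℕ) (As dbl : Finset ι) (w : ι → A) {p : ι} (hp : p ∈ dbl)
    (f : Polynomial ℂ) : hmap x0 x1 D As dbl w p f =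
      w p ^ 2 * hom x0 x1 (D - 2) (Polynomial.derivative f) := by
  rw [hmap, if_pos hp]; rfl

theorem hmap_single (x0 x1 : A) (D : ℕ) (As dbl : Finset ι) (w : ι → A) {p : ι} (hp : p ∉ dbl)
    (hp' : p ∈ As) (f : Polynomial ℂ) : hmap x0 x1 D As dbl w p f =
      w p * hom x0 x1 (D - 1) f := by
  rw [hmap, if_neg hp, if_pos hp']; rfl

theorem hmap_empty (x0 x1 : A) (D : ℕ) (As dbl : Finset ι) (w : ι → A) {p : ι} (hp : p ∉ dbl)
    (hp' : p ∉ As) : hmap x0 x1 D As dbl w p = hom x0 x1 D := by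
  rw [hmap, if_neg hp, if_neg hp']

theorem sub_PP (e : ι × (ι ⊕ κ) → ℕ) (z : (ι ⊕ κ) × Fin 2 → ℂ) :
    H482.sub z (H482.PP (K := ℂ) e) = ∏ p, Polynomial.aeval (X p : MvPolynomial ι ℂ)
      (∏ j, (Polynomial.C (z (j, 0)) * Polynomial.X + Polynomial.C (z (j, 1))) ^ e (p, j)) := by
  rw [H482.PP, map_prod, Fintype.prod_prod_type]
  apply prod_congr rfl
  intro p _
  rw [map_prod]
  apply prod_congr rfl
  intro j _
  rw [map_pow, map_pow]
  congr 1
  simp [H482.lin, H482.sub]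

/-- the vanishing on pure products -/
theorem pure_zero (B Z : Submodule ℂ A) (x0 x1 : A) (hB : B = Submodule.span ℂ {x0, x1}) (s : ℕ)
    (hc : 2 ≤ Fintype.card (ι ⊕ κ))
    (ψ : MultilinearMap ℂ (fun _ : ι => A) ℂ) (hs : Symm ψ)
    (hP : PowZero B Z (s + 2) (Fintype.card (ι ⊕ κ)) ψ)
    (hV : V3 B Z ((s + 2) * Fintype.card (ι ⊕ κ)) ψ) (As : Finset ι)
    (hT : T B Z ((s + 2) * Fintype.card (ι ⊕ κ)) (As.card + 1) ψ)
    (dbl : Finset ι) (hd : dbl ⊆ As) (w : ι → A) (hw : ∀ p, w p ∈ Z) (m : ι →₀ ℕ)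
    (hm : ∀ p, m p + (if p ∈ As then 1 else 0) ≤ (s + 2) * Fintype.card (ι ⊕ κ)) :
    ψ (fun p => hmap x0 x1 ((s + 2) * Fintype.card (ι ⊕ κ)) As dbl w p (Polynomial.X ^ m p))
      = 0 := by
  classical
  set D := (s + 2) * Fintype.card (ι ⊕ κ) with hD
  have hx0 : x0 ∈ B := by rw [hB]; exact Submodule.subset_span (by simp)
  have hx1 : x1 ∈ B := by rw [hB]; exact Submodule.subset_span (by simp)
  obtain ⟨φ, hφ, hφs⟩ := bridge ψ (hmap x0 x1 D As dbl w)
  have hsym : ∀ p p', p ∉ As → p' ∉ As → ∀ f, φ (rename (Equiv.swap p p') f) = φ f := by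
    intro p p' hp hp' f
    apply hφs hs
    rw [hmap_empty _ _ _ _ _ _ (fun h => hp (hd h)) hp,
      hmap_empty _ _ _ _ _ _ (fun h => hp' (hd h)) hp']
  have h0 : H482.hat (Λ := (ι ⊕ κ) × Fin 2) φ (H482.PP (H482.ee (s + 1) As)) = 0 := by
    apply MvPolynomial.funext
    intro z
    rw [H482.eval_hat, map_zero, sub_PP, hφ]
    set mm : ι ⊕ κ → A := fun j => z (j, 0) • x1 + z (j, 1) • x0 with hmm
    have hmB : ∀ j, mm j ∈ B := fun j =>
      B.add_mem (B.smul_mem _ hx1) (B.smul_mem _ hx0)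
    let S : ι → Set A := fun p => Set.range (fun i : ι ⊕ κ =>
      if p ∈ dbl then w p ^ 2 * Qp mm (fun j => s + 2 -
        (if j = Sum.inl p then 1 else 0) - (if j = i then 1 else 0))
      else if p ∈ As then w p * Qp mm (fun j => s + 2 - if j = Sum.inl p then 1 else 0)
      else Qp mm (fun _ => s + 2))
    apply zero_of_span ψ S
    · intro v hv
      choose i hi using hv
      have h1 := star B Z s hc ψ hs hP hV As hT dbl hd w hw mm hmB i
      rw [← h1]
      congr 1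
      funext p
      rw [← hi p]
    · intro p
      by_cases hp : p ∈ dbl
      · have hpA := hd hp
        have hee : ∀ j, H482.ee (κ := κ) (s + 1) As (p, j) = s + 2 - if j = Sum.inl p then 1 else 0 := by
          intro j
          simp only [H482.ee, hpA, and_true]
          split_ifs <;> omega
        rw [hmap_dbl _ _ _ _ _ _ hp]
        simp only [hee]
        rw [deriv_prod, map_sum, mul_sum]
        apply Submodule.sum_mem
        intro i _
        rw [map_smul, mul_smul_comm]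
        by_cases hz : (s + 2 - if i = Sum.inl p then 1 else 0) = 0
        · exfalso
          split_ifs at hz
          omega
        · apply Submodule.smul_mem
          rw [hom_Qp]
          · apply Submodule.subset_span
            refine ⟨i, ?_⟩
            simp only [if_pos hp]
            rfl
          · rw [sum_two (s + 2) (by omega)]
      · by_cases hpA : p ∈ As
        · have hee : ∀ j, H482.ee (κ := κ) (s + 1) As (p, j) = s + 2 - if j = Sum.inl p then 1 else 0 := by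
            intro j
            simp only [H482.ee, hpA, and_true]
            split_ifs <;> omega
          rw [hmap_single _ _ _ _ _ _ hp hpA]
          simp only [hee]
          rw [hom_Qp]
          · apply Submodule.subset_span
            refine ⟨Sum.inl p, ?_⟩
            simp only [if_neg hp, if_pos hpA]
            rfl
          · rw [sum_one (s + 2) (by omega)]
        · have hee : ∀ j, H482.ee (κ := κ) (s + 1) As (p, j) = s + 2 := by
            intro j
            simp only [H482.ee, hpA, and_false, if_false]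
          rw [hmap_empty _ _ _ _ _ _ hp hpA]
          simp only [hee]
          rw [hom_Qp]
          · apply Submodule.subset_span
            refine ⟨Sum.inl p, ?_⟩
            simp only [if_neg hp, if_neg hpA]
            rfl
          · rw [sum_const, card_univ, smul_eq_mul, mul_comm]
  have h1 := H482.pb_fun (s + 1) (H482.base_of_K2 (s + 1) (H4.k2aff ℂ (ι ⊕ κ) (s + 1))) As φ hsym
    h0 m hm
  rw [← hφ, ← h1]
  congr 1
  rw [MvPolynomial.monomial_eq, Finsupp.prod_fintype _ _ (by intro i; rw [pow_zero])]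
  simp


/-- spanning set of the pure products of the two main variables -/
theorem span_pure (x0 x1 : A) (D : ℕ) : (Submodule.span ℂ {x0, x1} : Submodule ℂ A) ^ D ≤
    Submodule.span ℂ {y | ∃ k ≤ D, y = x0 ^ (D - k) * x1 ^ k} := by
  induction D with
  | zero =>
    rw [pow_zero, Submodule.one_eq_span]
    apply Submodule.span_mono
    rintro _ rfl
    exact ⟨0, le_rfl, by simp⟩
  | succ D ih =>
    rw [pow_succ']
    refine (mul_le_mul' (le_refl _) ih).trans ?_
    rw [Submodule.span_mul_span, Submodule.span_le]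
    rintro _ ⟨a, ha, b, ⟨k, hk, rfl⟩, rfl⟩
    simp only [Set.mem_insert_iff, Set.mem_singleton_iff] at ha
    apply Submodule.subset_span
    rcases ha with rfl | rfl
    · refine ⟨k, by omega, ?_⟩
      show _ * (_ * _) = _
      rw [show D + 1 - k = (D - k) + 1 by omega, pow_succ']
      ring
    · refine ⟨k + 1, by omega, ?_⟩
      show _ * (_ * _) = _
      rw [show D + 1 - (k + 1) = D - k by omega, pow_succ']
      ring

theorem pow_sup_le (B Z : Submodule ℂ A) (n : ℕ) :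
    (B ⊔ Z) ^ (n + 1) ≤ B ^ (n + 1) ⊔ Z * (B ⊔ Z) ^ n := by
  induction n with
  | zero => simp
  | succ n ih =>
    rw [pow_succ' (B ⊔ Z) (n + 1)]
    have h1 : (B ⊔ Z) * (B ⊔ Z) ^ (n + 1) ≤ B * (B ^ (n + 1) ⊔ Z * (B ⊔ Z) ^ n) ⊔
        Z * (B ⊔ Z) ^ (n + 1) := by
      rw [Submodule.sup_mul]
      exact sup_le_sup (mul_le_mul' le_rfl ih) le_rfl
    refine h1.trans (sup_le ?_ le_sup_right)
    rw [Submodule.mul_sup, ← pow_succ']
    apply sup_le_sup le_rfl
    rw [← mul_assoc, mul_comm B Z, mul_assoc, pow_succ' (B ⊔ Z) n]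
    exact mul_le_mul' le_rfl (mul_le_mul' le_sup_left le_rfl)

/-- squares span -/
theorem sq_span (B' Z : Submodule ℂ A) : Z ^ 2 * B' ≤
    Submodule.span ℂ {y | ∃ z ∈ Z, ∃ b ∈ B', y = z ^ 2 * b} := by
  rw [pow_two, Submodule.mul_le]
  intro x hx b hb
  revert hx
  have h : Z * Z ≤ (Submodule.span ℂ {y | ∃ z ∈ Z, ∃ b ∈ B', y = z ^ 2 * b}).comap
      (LinearMap.mulRight ℂ b) := by
    rw [Submodule.mul_le]
    intro u hu v hv
    rw [Submodule.mem_comap, LinearMap.mulRight_apply]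
    have e : u * v * b = (1 / 2 : ℂ) • ((u + v) ^ 2 * b) - (1 / 2 : ℂ) • (u ^ 2 * b) -
        (1 / 2 : ℂ) • (v ^ 2 * b) := by
      rw [← smul_sub, ← smul_sub]
      have e2 : (u + v) ^ 2 * b - u ^ 2 * b - v ^ 2 * b = (2 : ℂ) • (u * v * b) := by
        rw [two_smul]; ring
      rw [e2, smul_smul]
      norm_num
    rw [e]
    refine Submodule.sub_mem _ (Submodule.sub_mem _ ?_ ?_) ?_
    · exact Submodule.smul_mem _ _ (Submodule.subset_span ⟨u + v, Z.add_mem hu hv, b, hb, rfl⟩)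
    · exact Submodule.smul_mem _ _ (Submodule.subset_span ⟨u, hu, b, hb, rfl⟩)
    · exact Submodule.smul_mem _ _ (Submodule.subset_span ⟨v, hv, b, hb, rfl⟩)
  intro hx
  exact h hx

theorem lin_span (B' Z : Submodule ℂ A) : Z * B' ≤
    Submodule.span ℂ {y | ∃ z ∈ Z, ∃ b ∈ B', y = z * b} := by
  rw [Submodule.mul_le]
  intro x hx b hb
  exact Submodule.subset_span ⟨x, hx, b, hb, rfl⟩

/-- decomposition of the elements with a tail letter -/
theorem Z_span (B Z : Submodule ℂ A) {D : ℕ} (hD : 4 ≤ D) : Z * (B ⊔ Z) ^ (D - 1) ≤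
    Submodule.span ℂ ({y | ∃ z ∈ Z, ∃ b ∈ B ^ (D - 1), y = z * b} ∪
      {y | ∃ z ∈ Z, ∃ b ∈ B ^ (D - 2), y = z ^ 2 * b} ∪
      {y | y ∈ Z ^ 3 * (B ⊔ Z) ^ (D - 3)}) := by
  obtain ⟨D, rfl⟩ : ∃ D', D = D' + 4 := ⟨D - 4, by omega⟩
  rw [show D + 4 - 1 = (D + 2) + 1 by omega, show D + 4 - 2 = (D + 1) + 1 by omega,
    show D + 4 - 3 = D + 1 by omega]
  have h1 : Z * (B ⊔ Z) ^ (D + 2 + 1) ≤ Z * B ^ (D + 2 + 1) ⊔ Z ^ 2 * B ^ (D + 1 + 1) ⊔
      Z ^ 3 * (B ⊔ Z) ^ (D + 1) := by
    refine (mul_le_mul' (le_refl Z) (pow_sup_le B Z (D + 2))).trans ?_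
    rw [Submodule.mul_sup, sup_assoc]
    apply sup_le_sup le_rfl
    rw [← mul_assoc, ← pow_two]
    refine (mul_le_mul' (le_refl (Z ^ 2)) (pow_sup_le B Z (D + 1))).trans ?_
    rw [Submodule.mul_sup]
    apply sup_le_sup le_rfl
    rw [← mul_assoc, ← pow_succ]
  refine h1.trans (sup_le (sup_le ?_ ?_) ?_)
  · exact (lin_span _ _).trans (Submodule.span_mono (fun y hy => Or.inl (Or.inl hy)))
  · exact (sq_span _ _).trans (Submodule.span_mono (fun y hy => Or.inl (Or.inr hy)))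
  · intro y hy
    exact Submodule.subset_span (Or.inr hy)

/-- vanishing on products `b`, `w b`, `w² b` -/
theorem prod_zero (B Z : Submodule ℂ A) (x0 x1 : A) (hB : B = Submodule.span ℂ {x0, x1}) (s : ℕ)
    (hc : 2 ≤ Fintype.card (ι ⊕ κ))
    (ψ : MultilinearMap ℂ (fun _ : ι => A) ℂ) (hs : Symm ψ)
    (hP : PowZero B Z (s + 2) (Fintype.card (ι ⊕ κ)) ψ)
    (hV : V3 B Z ((s + 2) * Fintype.card (ι ⊕ κ)) ψ) (As : Finset ι)
    (hT : T B Z ((s + 2) * Fintype.card (ι ⊕ κ)) (As.card + 1) ψ)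
    (dbl : Finset ι) (hd : dbl ⊆ As) (w : ι → A) (hw : ∀ p, w p ∈ Z) (P : ι → A)
    (h1 : ∀ p ∈ dbl, ∃ b ∈ B ^ ((s + 2) * Fintype.card (ι ⊕ κ) - 2), P p = w p ^ 2 * b)
    (h2 : ∀ p ∈ As, p ∉ dbl → ∃ b ∈ B ^ ((s + 2) * Fintype.card (ι ⊕ κ) - 1), P p = w p * b)
    (h3 : ∀ p ∉ As, P p ∈ B ^ ((s + 2) * Fintype.card (ι ⊕ κ))) : ψ P = 0 := by
  classical
  set D := (s + 2) * Fintype.card (ι ⊕ κ) with hD
  have hD4 : 4 ≤ D := by rw [hD]; nlinarith
  apply zero_of_span ψ (fun p => {y | ∃ k, k + (if p ∈ As then 1 else 0) ≤ D ∧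
    y = hmap x0 x1 D As dbl w p (Polynomial.X ^ k)})
  · intro v hv
    choose k hk hvk using hv
    have := pure_zero B Z x0 x1 hB s hc ψ hs hP hV As hT dbl hd w hw
      (Finsupp.equivFunOnFinite.symm k) (by
        intro p
        rw [Finsupp.equivFunOnFinite_symm_apply_apply]
        exact hk p)
    rw [← this]
    congr 1
    funext p
    rw [hvk p, Finsupp.equivFunOnFinite_symm_apply_apply]
  · intro p
    by_cases hp : p ∈ dbl
    · obtain ⟨b, hb, hPb⟩ := h1 p hp
      rw [hPb]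
      have hle : B ^ (D - 2) ≤ (Submodule.span ℂ {y | ∃ k, k + (if p ∈ As then 1 else 0) ≤ D ∧
          y = hmap x0 x1 D As dbl w p (Polynomial.X ^ k)}).comap
          (LinearMap.mulLeft ℂ (w p ^ 2)) := by
        rw [hB]
        refine (span_pure x0 x1 (D - 2)).trans ?_
        rw [Submodule.span_le]
        rintro _ ⟨k, hk, rfl⟩
        rw [SetLike.mem_coe, Submodule.mem_comap, LinearMap.mulLeft_apply]
        have e : w p ^ 2 * (x0 ^ (D - 2 - k) * x1 ^ k) = ((k + 1 : ℕ) : ℂ)⁻¹ •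
            hmap x0 x1 D As dbl w p (Polynomial.X ^ (k + 1)) := by
          rw [hmap_dbl _ _ _ _ _ _ hp, Polynomial.derivative_X_pow, Nat.add_sub_cancel,
            ← Polynomial.smul_eq_C_mul, map_smul, hom_X_pow _ _ _ _ hk, mul_smul_comm, smul_smul,
            inv_mul_cancel₀ (Nat.cast_ne_zero.mpr (by omega)), one_smul]
        rw [e]
        apply Submodule.smul_mem
        apply Submodule.subset_span
        refine ⟨k + 1, ?_, rfl⟩
        rw [if_pos (hd hp)]
        omega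
      exact hle hb
    · by_cases hpA : p ∈ As
      · obtain ⟨b, hb, hPb⟩ := h2 p hpA hp
        rw [hPb]
        have hle : B ^ (D - 1) ≤ (Submodule.span ℂ {y | ∃ k, k + (if p ∈ As then 1 else 0) ≤ D ∧
            y = hmap x0 x1 D As dbl w p (Polynomial.X ^ k)}).comap
            (LinearMap.mulLeft ℂ (w p)) := by
          rw [hB]
          refine (span_pure x0 x1 (D - 1)).trans ?_
          rw [Submodule.span_le]
          rintro _ ⟨k, hk, rfl⟩
          rw [SetLike.mem_coe, Submodule.mem_comap, LinearMap.mulLeft_apply]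
          apply Submodule.subset_span
          refine ⟨k, ?_, ?_⟩
          · rw [if_pos hpA]; omega
          · rw [hmap_single _ _ _ _ _ _ hp hpA, hom_X_pow _ _ _ _ hk]
        exact hle hb
      · have hle : B ^ D ≤ (Submodule.span ℂ {y | ∃ k, k + (if p ∈ As then 1 else 0) ≤ D ∧
            y = hmap x0 x1 D As dbl w p (Polynomial.X ^ k)}) := by
          rw [hB]
          refine (span_pure x0 x1 D).trans ?_
          apply Submodule.span_mono
          rintro _ ⟨k, hk, rfl⟩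
          refine ⟨k, ?_, ?_⟩
          · rw [if_neg hpA]; omega
          · rw [hmap_empty _ _ _ _ _ _ hp hpA, hom_X_pow _ _ _ _ hk]
        exact hle (h3 p hpA)

/-- the induction step -/
theorem step (B Z : Submodule ℂ A) (x0 x1 : A) (hB : B = Submodule.span ℂ {x0, x1}) (s : ℕ)
    (hc : 2 ≤ Fintype.card (ι ⊕ κ))
    (ψ : MultilinearMap ℂ (fun _ : ι => A) ℂ) (hs : Symm ψ)
    (hP : PowZero B Z (s + 2) (Fintype.card (ι ⊕ κ)) ψ)
    (hV : V3 B Z ((s + 2) * Fintype.card (ι ⊕ κ)) ψ) (k : ℕ)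
    (hT : T B Z ((s + 2) * Fintype.card (ι ⊕ κ)) (k + 1) ψ) :
    T B Z ((s + 2) * Fintype.card (ι ⊕ κ)) k ψ := by
  classical
  set D := (s + 2) * Fintype.card (ι ⊕ κ) with hD
  have hD4 : 4 ≤ D := by rw [hD]; nlinarith
  intro M hM P hPD hPM
  rcases Nat.lt_or_ge k M.card with h | h
  · exact hT M h P hPD hPM
  have hMk : M.card = k := le_antisymm h hM
  subst hMk
  let S1 : Set A := {y | ∃ z ∈ Z, ∃ b ∈ B ^ (D - 1), y = z * b}
  let S2 : Set A := {y | ∃ z ∈ Z, ∃ b ∈ B ^ (D - 2), y = z ^ 2 * b}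
  let S3 : Set A := {y | y ∈ Z ^ 3 * (B ⊔ Z) ^ (D - 3)}
  let S4 : Set A := {y | y ∈ B ^ D}
  let S5 : Set A := {y | y ∈ Z * (B ⊔ Z) ^ (D - 1)}
  have m1 : ∀ y ∈ S1, y ∈ Z * (B ⊔ Z) ^ (D - 1) := by
    rintro _ ⟨z, hz, b, hb, rfl⟩
    exact Submodule.mul_mem_mul hz (pow_le_sup B Z _ hb)
  have m2 : ∀ y ∈ S2, y ∈ Z * (B ⊔ Z) ^ (D - 1) := by
    rintro _ ⟨z, hz, b, hb, rfl⟩
    exact Z2_mul_le B Z (by omega)
      (Submodule.mul_mem_mul (Submodule.pow_mem_pow _ hz 2) (pow_le_sup B Z _ hb))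
  have m3 : ∀ y ∈ S3, y ∈ (B ⊔ Z) ^ D := fun y hy => Z3_mul_le B Z (by omega) hy
  have m5 : ∀ y ∈ Z * (B ⊔ Z) ^ (D - 1), y ∈ (B ⊔ Z) ^ D := fun y hy => Z_mul_le B Z (by omega) hy
  apply zero_of_span ψ (fun p => if p ∈ M then S1 ∪ S2 ∪ S3 else S4 ∪ S5)
  · intro v hv
    have hvM : ∀ p ∈ M, v p ∈ S1 ∪ S2 ∪ S3 := by
      intro p hp
      have := hv p
      rwa [if_pos hp] at this
    have hvM' : ∀ p ∉ M, v p ∈ S4 ∪ S5 := by
      intro p hp
      have := hv p
      rwa [if_neg hp] at this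
    have hvD : ∀ p, v p ∈ (B ⊔ Z) ^ D := by
      intro p
      by_cases hp : p ∈ M
      · rcases hvM p hp with (h | h) | h
        · exact m5 _ (m1 _ h)
        · exact m5 _ (m2 _ h)
        · exact m3 _ h
      · rcases hvM' p hp with h | h
        · exact pow_le_sup B Z _ h
        · exact m5 _ h
    by_cases h3 : ∃ p, v p ∈ S3
    · exact hV v hvD h3
    push Not at h3
    have hvM2 : ∀ p ∈ M, v p ∈ Z * (B ⊔ Z) ^ (D - 1) := by
      intro p hp
      rcases hvM p hp with (h | h) | h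
      · exact m1 _ h
      · exact m2 _ h
      · exact absurd h (h3 p)
    by_cases h5 : ∃ p ∉ M, v p ∈ S5
    · obtain ⟨p, hp, hp5⟩ := h5
      apply hT (insert p M) (by rw [card_insert_of_notMem hp]) v hvD
      intro p' hp'
      rw [mem_insert] at hp'
      rcases hp' with rfl | hp'
      · exact hp5
      · exact hvM2 p' hp'
    push Not at h5
    -- choose the letters
    have hex : ∀ p, ∃ z ∈ Z, (p ∈ M → v p ∉ S1 → ∃ b ∈ B ^ (D - 2), v p = z ^ 2 * b) ∧
        (p ∈ M → v p ∈ S1 → ∃ b ∈ B ^ (D - 1), v p = z * b) := by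
      intro p
      by_cases hp : p ∈ M
      · by_cases h1 : v p ∈ S1
        · obtain ⟨z, hz, b, hb, e⟩ := h1
          exact ⟨z, hz, fun _ hn => absurd ⟨z, hz, b, hb, e⟩ hn, fun _ _ => ⟨b, hb, e⟩⟩
        · rcases hvM p hp with (h | h) | h
          · exact absurd h h1
          · obtain ⟨z, hz, b, hb, e⟩ := h
            exact ⟨z, hz, fun _ _ => ⟨b, hb, e⟩, fun _ hn => absurd hn h1⟩
          · exact absurd h (h3 p)
      · exact ⟨0, Z.zero_mem, fun h => absurd h hp, fun h => absurd h hp⟩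
    choose z hz hz2 hz1 using hex
    apply prod_zero B Z x0 x1 hB s hc ψ hs hP hV M hT (M.filter (fun p => v p ∉ S1))
      (filter_subset _ _) z hz v
    · intro p hp
      rw [mem_filter] at hp
      exact hz2 p hp.1 hp.2
    · intro p hp hp'
      rw [mem_filter, not_and, not_not] at hp'
      exact hz1 p hp (hp' hp)
    · intro p hp
      rcases hvM' p hp with h | h
      · exact h
      · exact absurd h (h5 p hp)
  · intro p
    by_cases hp : p ∈ M
    · simp only [if_pos hp]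
      exact Z_span B Z hD4 (hPM p hp)
    · simp only [if_neg hp]
      have h1 : (B ⊔ Z) ^ D ≤ Submodule.span ℂ (S4 ∪ S5) := by
        have h2 := pow_sup_le B Z (D - 1)
        rw [Nat.sub_add_cancel (by omega : 1 ≤ D)] at h2
        refine h2.trans (sup_le ?_ ?_)
        · intro y hy
          exact Submodule.subset_span (Or.inl hy)
        · intro y hy
          exact Submodule.subset_span (Or.inr hy)
      exact h1 (hPD p)

/-- **Core theorem of B2.** -/
theorem all_zero (B Z : Submodule ℂ A) (x0 x1 : A) (hB : B = Submodule.span ℂ {x0, x1}) (s : ℕ)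
    (hc : 2 ≤ Fintype.card (ι ⊕ κ))
    (ψ : MultilinearMap ℂ (fun _ : ι => A) ℂ) (hs : Symm ψ)
    (hP : PowZero B Z (s + 2) (Fintype.card (ι ⊕ κ)) ψ)
    (hV : V3 B Z ((s + 2) * Fintype.card (ι ⊕ κ)) ψ) (P : ι → A)
    (hPm : ∀ i, P i ∈ (B ⊔ Z) ^ ((s + 2) * Fintype.card (ι ⊕ κ))) : ψ P = 0 := by
  have key : ∀ j k : ℕ, k + j = Fintype.card ι + 1 →
      T B Z ((s + 2) * Fintype.card (ι ⊕ κ)) k ψ := by
    intro j
    induction j with
    | zero =>
      intro k hk M hM
      have := card_le_univ M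
      omega
    | succ j ih =>
      intro k hk
      exact step B Z x0 x1 hB s hc ψ hs hP hV k (ih (k + 1) (by omega))
  exact key (Fintype.card ι + 1) 0 (by omega) ∅ (by simp) P hPm (by simp)

end Vale.Agent.P181.H984
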